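import Vale.Agent.P092PR.Red
import Vale.Agent.P092PG.Dec
import Vale.Agent.P092.H35.Mx.Dis
import Vale.Agent.P092.H678.O.Cls
import Vale.Agent.P092.VR.H978.FN

/-!
P092, product glue (helper26): a lattice of a product is virtually the product of its components.
-/

set_option linter.all false

open Set Topology Filter

namespace Vale.Agent.P092PR

open Vale.Agent.P092 Vale.Agent.P092.H678.OV
open Vale.Agent.P092.VR (Ov)
open Vale.Agent.P092.H515.St (IsLattice)
open Vale.Agent.P092.H35.Mx (MinC)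
open Vale.Agent.P092PG (Dec)

variable {Γ I C : Type} [Group Γ] {E : I → Type} [∀ i, Group (E i)]

open Classical in
/-- the coordinates in `A` -/
noncomputable def cut (A : Set I) : (∀ i, E i) →* ∀ i, E i where
  toFun x i := if i ∈ A then x i else 1
  map_one' := funext fun i => ite_self _
  map_mul' x y := funext fun i => by by_cases h : i ∈ A <;> simp [h]

theorem cut_mem {A : Set I} {i : I} (h : i ∈ A) (x : ∀ i, E i) : cut A x i = x i := if_pos h

theorem cut_not {A : Set I} {i : I} (h : i ∉ A) (x : ∀ i, E i) : cut A x i = 1 := if_neg h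

theorem cut_eq {A : Set I} {x y : ∀ i, E i} : cut A x = cut A y ↔ ∀ i ∈ A, x i = y i :=
  ⟨fun e i h => by rw [← cut_mem h x, e, cut_mem h], fun e => funext fun i => by
    by_cases h : i ∈ A
    · rw [cut_mem h, cut_mem h, e i h]
    · rw [cut_not h, cut_not h]⟩

/-- the elements whose coordinates outside `A` are trivial -/
noncomputable def Su (q : Γ →* ∀ i, E i) (A : Set I) : Subgroup Γ := ((cut Aᶜ).comp q).ker

theorem mem_Su {q : Γ →* ∀ i, E i} {A : Set I} {g : Γ} : g ∈ Su q A ↔ ∀ i, i ∉ A → q g i = 1 :=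
  ((congrArg (cut Aᶜ (q g) = ·) (map_one (cut Aᶜ)).symm).to_iff).trans cut_eq

instance (q : Γ →* ∀ i, E i) (A : Set I) : (Su q A).Normal := MonoidHom.normal_ker _

/-- the product of the components of `N` -/
noncomputable def G0 (N : Subgroup Γ) (q : Γ →* ∀ i, E i) (π : I → C) : Subgroup Γ :=
  N ⊓ ⨅ c, N ⊓ Su q (π ⁻¹' {c}) ⊔ Su q (π ⁻¹' {c})ᶜ

/-- the components -/
noncomputable def SS (N : Subgroup Γ) (q : Γ →* ∀ i, E i) (π : I → C) (A : Set C) :
    Subgroup (G0 N q π) := (Su q (π ⁻¹' A)).subgroupOf _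

variable {N : Subgroup Γ} {q : Γ →* ∀ i, E i} {π : I → C}

theorem mem_sup {A : Set I} {g : Γ} :
    g ∈ N ⊓ Su q A ⊔ Su q Aᶜ ↔ ∃ n ∈ N ⊓ Su q A, ∀ i ∈ A, q n i = q g i := by
  rw [Subgroup.mem_sup_of_normal_right]
  refine exists_congr fun n => and_congr_right fun _ => ⟨?_, fun e => ⟨n⁻¹ * g, ?_, by group⟩⟩
  · rintro ⟨z, hz, rfl⟩ i hi
    rw [map_mul, Pi.mul_apply, mem_Su.1 hz i fun h => h hi, mul_one]
  · refine mem_Su.2 fun i hi => ?_
    rw [map_mul, map_inv, Pi.mul_apply, Pi.inv_apply, e i (not_not.1 hi), inv_mul_cancel]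

theorem mem_G0 {g : Γ} : g ∈ G0 N q π ↔
    g ∈ N ∧ ∀ c, ∃ n ∈ N ⊓ Su q (π ⁻¹' {c}), ∀ i, π i = c → q n i = q g i :=
  and_congr_right fun _ => Subgroup.mem_iInf.trans (forall_congr' fun _ => mem_sup)

instance [N.Normal] : (G0 N q π).Normal :=
  haveI := Subgroup.normal_iInf_normal (a := fun c => N ⊓ Su q (π ⁻¹' {c}) ⊔ Su q (π ⁻¹' {c})ᶜ)
    fun _ => inferInstance
  Subgroup.normal_inf_normal _ _

theorem Su_le (c : C) : N ⊓ Su q (π ⁻¹' {c}) ≤ G0 N q π := fun g hg => mem_G0.2 ⟨hg.1, fun d => by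
  by_cases h : d = c
  · exact ⟨g, h ▸ hg, fun _ _ => rfl⟩
  · exact ⟨1, one_mem _, fun i e => by
      rw [map_one, mem_Su.1 hg.2 i fun e' => h (e.symm.trans e'), Pi.one_apply]⟩⟩

theorem exists_cut [Finite C] {g : Γ} (hg : g ∈ G0 N q π) (A : Set C) :
    ∃ x ∈ G0 N q π ⊓ Su q (π ⁻¹' A), ∀ i, π i ∈ A → q x i = q g i := by
  induction A, A.toFinite using Set.Finite.induction_on with
  | empty => exact ⟨1, one_mem _, fun _ h => h.elim⟩
  | @insert c A hc _ ih =>
    obtain ⟨x, ⟨h1, h2⟩, h3⟩ := ih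
    obtain ⟨n, h4, h5⟩ := (mem_G0.1 hg).2 c
    refine ⟨n * x, ⟨mul_mem (Su_le c h4) h1, mem_Su.2 fun i hi => ?_⟩, fun i hi => ?_⟩
    · rw [map_mul, Pi.mul_apply, mem_Su.1 h4.2 i fun e => hi (.inl e),
        mem_Su.1 h2 i fun e => hi (.inr e), one_mul]
    · rw [map_mul, Pi.mul_apply]
      rcases hi with e | e
      · rw [h5 i e, mem_Su.1 h2 i fun e' => hc (e ▸ e'), mul_one]
      · rw [h3 i e, mem_Su.1 h4.2 i fun e' => hc (e' ▸ e), one_mul]

theorem comm_Su (hi : Function.Injective q) {A B : Set I} (h : Disjoint A B) {x y : Γ}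
    (hx : x ∈ Su q A) (hy : y ∈ Su q B) : x * y = y * x := hi (funext fun i => by
  rw [map_mul, map_mul, Pi.mul_apply, Pi.mul_apply]
  by_cases e : i ∈ A
  · rw [mem_Su.1 hy i (disjoint_left.1 h e), mul_one, one_mul]
  · rw [mem_Su.1 hx i e, mul_one, one_mul])

/-- **the decomposition** -/
theorem dec [Finite C] (hi : Function.Injective q) : Dec (SS N q π) where
  mono h g hg := mem_Su.2 fun i e => mem_Su.1 hg i fun e' => e (h e')
  comm h x hx y hy := Subtype.ext (comm_Su hi (h.preimage π) hx hy)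
  sup A B g hg := by
    obtain ⟨x, ⟨h1, h2⟩, h3⟩ := exists_cut g.2 A
    refine ⟨⟨x, h1⟩, h2, ⟨x, h1⟩⁻¹ * g, mem_Su.2 fun i e => ?_, by group⟩
    show q (x⁻¹ * g) i = 1
    rw [map_mul, map_inv, Pi.mul_apply, Pi.inv_apply]
    by_cases a : π i ∈ A
    · rw [h3 i a, inv_mul_cancel]
    · rw [mem_Su.1 h2 i a, inv_one, one_mul]
      exact mem_Su.1 hg i fun e' => e'.elim a e
  inj h x hx hy := Subtype.ext (hi (funext fun i => by
    rw [OneMemClass.coe_one, map_one]
    exact by_contra fun e => disjoint_left.1 h (by_contra fun a => e (mem_Su.1 hx i a))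
      (by_contra fun a => e (mem_Su.1 hy i a))))
  top g := mem_Su.2 fun i e => (e trivial).elim

/-- the components are normal (hypothesis `hn` of `over_top`) -/
theorem SS_conj [N.Normal] (γ : Γ) (A : Set C) :
    ∀ s ∈ SS N q π A, ∃ s' ∈ SS N q π A, (s' : Γ) = γ * s * γ⁻¹ := fun s hs =>
  ⟨⟨_, Subgroup.Normal.conj_mem inferInstance _ s.2 γ⟩,
    Subgroup.Normal.conj_mem (H := Su q _) inferInstance _ hs γ, rfl⟩

theorem icc_SS [Finite C] (hi : Function.Injective q) (h : Icc (G0 N q π)) (A : Set C) :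
    Icc (SS N q π A) := fun g hg hf => h g (fun e => hg (Subtype.ext e)) ((hf.image (↑)).subset (by
  rintro _ ⟨x, rfl⟩
  obtain ⟨a, ha, b, hb, rfl⟩ := (dec hi).split A x
  refine ⟨_, ⟨⟨a, ha⟩, rfl⟩, ?_⟩
  show a * g * a⁻¹ = _
  rw [mul_assoc a b, ← (dec hi).comm disjoint_compl_right _ g.2 b hb]
  group))

variable [∀ i, TopologicalSpace (E i)]

theorem cont_cut (A : Set I) : Continuous (cut A : (∀ i, E i) → _) := continuous_pi fun i => by
  by_cases h : i ∈ A
  · simp only [cut_mem h]; exact continuous_apply i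
  · simp only [cut_not h]; exact continuous_const

/-- the projection to the coordinates in `A` is discrete -/
def FC (q : Γ →* ∀ i, E i) (A : Set I) : Prop :=
  ∀ K, IsCompact K → (range ((cut A).comp q) ∩ K).Finite

theorem fc_of {A : Set I} {D : Type} [TopologicalSpace D] {f : (∀ i, E i) → D} (hf : Continuous f)
    (h1 : ∀ x y, f x = f y ↔ ∀ i ∈ A, x i = y i)
    (h2 : ∀ K, IsCompact K → (range (f ∘ q) ∩ K).Finite) : FC q A := fun K hK => by
  have h3 : ∀ x, f (cut A x) = f x := fun x => (h1 _ _).2 fun i h => cut_mem h x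
  refine .of_finite_image ((h2 _ (hK.image hf)).subset ?_) (f := f) ?_
  · rintro _ ⟨_, ⟨⟨g, rfl⟩, h⟩, rfl⟩
    exact ⟨⟨g, (h3 _).symm⟩, _, h, rfl⟩
  · rintro _ ⟨⟨g, rfl⟩, -⟩ _ ⟨⟨g', rfl⟩, -⟩ e
    exact cut_eq.2 ((h1 _ _).1 ((h3 _).symm.trans (e.trans (h3 _))))

theorem FC.union {A B : Set I} (a : FC q A) (b : FC q B) : FC q (A ∪ B) :=
  fc_of ((cont_cut A).prodMk (cont_cut B)) (fun x y => by
    simp only [Prod.mk.injEq, cut_eq, mem_union, or_imp, forall_and]) fun K hK =>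
    ((a _ (hK.image continuous_fst)).prod (b _ (hK.image continuous_snd))).subset (by
      rintro _ ⟨⟨g, rfl⟩, h⟩
      exact ⟨⟨⟨g, rfl⟩, _, h, rfl⟩, ⟨g, rfl⟩, _, h, rfl⟩)

theorem fc_pre [Finite C] (h : ∀ c, FC q (π ⁻¹' {c})) (A : Set C) : FC q (π ⁻¹' A) := by
  induction A, A.toFinite using Set.Finite.induction_on with
  | empty => exact fc_of (f := fun _ => ()) continuous_const (by simp) fun _ _ => toFinite _
  | insert _ _ ih => exact (h _).union ih

variable [Fintype I] [∀ i, IsTopologicalGroup (E i)] [∀ i, T2Space (E i)]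
  [∀ i, LocallyCompactSpace (E i)] [∀ i, SecondCountableTopology (E i)]

theorem fc_one {j : I} (h : DiscreteTopology (range fun g => q g j)) : FC q {j} :=
  fc_of (continuous_apply j) (by simp) fun K hK => by
    haveI : DiscreteTopology ((Pi.evalMonoidHom E j).comp q).range := h
    refine ((H515.finite_of_compact ((Pi.evalMonoidHom E j).comp q).range hK).image (↑)).subset ?_
    rintro _ ⟨⟨g, rfl⟩, h⟩
    exact ⟨⟨_, g, rfl⟩, h, rfl⟩

theorem lat_fi (hl : IsLattice q.range) (N : Subgroup Γ) [N.FiniteIndex] :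
    H515.IsLattice (q.comp N.subtype).range := by
  refine VR.H978.isLattice_fi ⟨hl.disc, hl.covol⟩ (by rintro _ ⟨x, rfl⟩; exact ⟨x, rfl⟩) ?_
  haveI : (N.map q.rangeRestrict).FiniteIndex := ⟨fun h0 =>
    Subgroup.FiniteIndex.index_ne_zero (Nat.eq_zero_of_zero_dvd
      (h0 ▸ Subgroup.index_map_dvd N q.rangeRestrict_surjective))⟩
  refine Subgroup.finiteIndex_of_le (H := N.map q.rangeRestrict) ?_
  rintro _ ⟨g, hg, rfl⟩
  exact ⟨⟨g, hg⟩, rfl⟩

theorem fi_sup [N.Normal] [N.FiniteIndex] (hl : IsLattice q.range) {A : Set I} (a : FC q A)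
    (b : FC q Aᶜ) : (N ⊓ Su q A ⊔ Su q Aᶜ).FiniteIndex := by
  obtain ⟨U, hU, h1⟩ := exists_compact_mem_nhds (1 : ∀ i, E i)
  obtain ⟨K, hK, h2⟩ := H35.Mx.cob (lat_fi hl N) (cut Aᶜ) (cont_cut _) ⟨_, inter_mem h1
    (((b U hU).diff (t := {1})).isClosed.isOpen_compl.mem_nhds fun h => h.2 rfl),
    by rintro _ ⟨g, rfl⟩ h; exact by_contra fun e => h.2 ⟨⟨⟨g, rfl⟩, h.1⟩, e⟩⟩
  have h3 : ∀ g : Γ, ∃ n ∈ N ⊓ Su q A, cut A (q (g * n⁻¹)) ∈ K := fun g => by
    obtain ⟨c, hc, _, ⟨⟨n, hN⟩, rfl⟩, h4, h5⟩ := h2 (cut A (q g)) (funext fun i => by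
      by_cases e : i ∈ A
      · exact cut_not (not_not.2 e) _
      · exact (cut_mem e _).trans (cut_not e _)) (by
      rintro _ ⟨⟨n, hN⟩, rfl⟩ hn
      refine ⟨⟨g * n * g⁻¹, Subgroup.Normal.conj_mem inferInstance _ hN g⟩, funext fun i => ?_⟩
      show q (g * n * g⁻¹) i = (cut A (q g) * q n * (cut A (q g))⁻¹) i
      simp only [map_mul, map_inv, Pi.mul_apply, Pi.inv_apply]
      by_cases e : i ∈ A
      · rw [cut_mem e]
      · rw [cut_not e, mem_Su.1 (show n ∈ Su q A from hn) i e]; simp)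
    refine ⟨n, ⟨hN, h4⟩, ?_⟩
    rwa [map_mul, map_mul, h5, map_inv, map_inv, show cut A (q n) = (q.comp N.subtype) ⟨n, hN⟩ from
      funext fun i => by
        by_cases e : i ∈ A
        · exact cut_mem e _
        · exact (cut_not e _).trans (mem_Su.1 (show n ∈ Su q A from h4) i e).symm,
      mul_inv_cancel_right]
  choose n h4 h5 using h3
  haveI := (a K hK).to_subtype
  refine @Subgroup.finiteIndex_of_finite_quotient _ _ _ (.of_injective
    (fun y => (⟨_, ⟨_, rfl⟩, h5 y.out⟩ : ↥(range ((cut A).comp q) ∩ K))) fun y y' e => ?_)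
  rw [← y.out_eq', ← y'.out_eq', QuotientGroup.eq, show y.out⁻¹ * y'.out = (n y.out)⁻¹ *
    ((y.out * (n y.out)⁻¹)⁻¹ * (y'.out * (n y'.out)⁻¹)) * n y'.out by group]
  refine mul_mem (mul_mem (Subgroup.mem_sup_left (inv_mem (h4 _))) (Subgroup.mem_sup_right
    (mem_Su.2 fun i hi => ?_))) (Subgroup.mem_sup_left (h4 _))
  rw [map_mul, map_inv, Pi.mul_apply, Pi.inv_apply,
    cut_eq.1 (congrArg Subtype.val e) i (not_not.1 hi), inv_mul_cancel]

/-- **the product of the components has finite index** -/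
theorem fi_G0 [Finite C] [N.Normal] [N.FiniteIndex] (hl : IsLattice q.range)
    (h : ∀ c, FC q (π ⁻¹' {c})) : (G0 N q π).FiniteIndex :=
  haveI := Subgroup.finiteIndex_iInf fun c => fi_sup (N := N) hl (h c) (fc_pre h {c}ᶜ)
  inferInstanceAs (N ⊓ _).FiniteIndex

variable {M : I → Type} [∀ i, Group (M i)] [∀ i, TopologicalSpace (M i)] {φ : ∀ i, M i →* E i}
  {r : I → ℕ}

/-- the projection to the product of the dense places is discrete -/
theorem fc_dense (hO : ∀ i, Ov (φ i) (r i)) (hm : ∀ i, MinC (E i)) (hl : IsLattice q.range)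
    (B : Set I) (h1 : ∀ i ∈ B, DenseRange fun g => q g i)
    (h2 : ∀ i, i ∉ B → DiscreteTopology (range fun g => q g i)) : FC q B := by
  classical
  choose R hR using fun i => H333.V.exists_rad (hO i)
  haveI := fun i => (hR i).normal
  let qD : (∀ i, E i) →* ∀ i : {i // i ∉ B}, E i := MonoidHom.pi fun i => Pi.evalMonoidHom E i.1
  let qN : (∀ i, E i) →* ∀ i : {i // ¬ i ∉ B}, E i := MonoidHom.pi fun i => Pi.evalMonoidHom E i.1
  have h3 := H259.Fk.lat_proper (qD.prod qN) (Homeomorph.piEquivPiSubtypeProd (· ∉ B) E).isProperMap (by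
    rw [MonoidHom.range_eq_top.2 (Homeomorph.piEquivPiSubtypeProd (· ∉ B) E).surjective]
    infer_instance) hl
  rw [MonoidHom.map_range] at h3
  exact fc_of (f := qN) (continuous_pi fun i => continuous_apply i.1) (fun x y =>
    ⟨fun e i hi => congrFun e ⟨i, not_not.2 hi⟩, fun e => funext fun i => e i (not_not.1 i.2)⟩)
    (H35.Mx.disc_G (qD.comp q) (qN.comp q) (fun i => hO i) (fun i => hR i) ⟨h3.disc, h3.covol⟩
      (H35.Mx.disc_pi _ fun i => h2 i i.2) (fun i => hm i) fun i => h1 i (not_not.1 i.2))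

/-- the component of a discrete place is a lattice of the place -/
theorem lat_SS (hl : IsLattice q.range) [(G0 N q π).FiniteIndex] {j : I}
    (hj : π ⁻¹' {π j} = {j}) (h : DiscreteTopology (range fun g => q g j)) :
    IsLattice (((Pi.evalMonoidHom E j).comp q).comp
      ((G0 N q π).subtype.comp (SS N q π {π j}).subtype)).range := by
  classical
  let p := (Pi.evalMonoidHom E j).comp q
  have h1 : H515.IsLattice p.range := ⟨h, Nd.push (Pi.evalMonoidHom E j) (continuous_apply j)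
    (fun x => ⟨Function.update 1 j x, Function.update_self j x 1⟩) q.range _ (by
      rintro _ ⟨g, rfl⟩; exact ⟨g, rfl⟩) hl.covol⟩
  have h2 := VR.H978.isLattice_fi (Δ := (p.comp ((G0 N q π).subtype.comp
    (SS N q π {π j}).subtype)).range) h1 (by rintro _ ⟨x, rfl⟩; exact ⟨_, rfl⟩) (by
      haveI : ((G0 N q π).map p.rangeRestrict).FiniteIndex := ⟨fun h0 =>
        Subgroup.FiniteIndex.index_ne_zero (Nat.eq_zero_of_zero_dvd
          (h0 ▸ Subgroup.index_map_dvd (G0 N q π) p.rangeRestrict_surjective))⟩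
      refine Subgroup.finiteIndex_of_le (H := (G0 N q π).map p.rangeRestrict) ?_
      rintro _ ⟨g, hg, rfl⟩
      obtain ⟨n, a, b⟩ := (mem_G0.1 hg).2 (π j)
      exact ⟨⟨⟨n, Su_le _ a⟩, a.2⟩, b j rfl⟩)
  exact ⟨h2.disc, h2.covol⟩

/-- **the hypothesis `hJ` of `over_top`** -/
theorem comp_disc [Finite C] (hi : Function.Injective q) (hl : IsLattice q.range) (hΓ : Icc Γ)
    [(G0 N q π).FiniteIndex] {j : I} (hj : π ⁻¹' {π j} = {j}) (hO : Ov (φ j) (r j))
    (h : DiscreteTopology (range fun g => q g j)) (hE : OverStmt (E j)) :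
    Infinite (SS N q π {π j}) ∧ Icc (SS N q π {π j}) ∧ ∀ (K : Type) [NormedAddCommGroup K]
      [InnerProductSpace ℂ K] [CompleteSpace K] (V R₁ R₂ : SS N q π {π j} →* (K →L[ℂ] K)),
      Sys V R₁ R₂ → OverV V R₁ R₂ := by
  have h1 := lat_SS (N := N) hl hj h
  have h2 := icc_SS hi (icc_fi hΓ (G0 N q π)) {π j}
  obtain ⟨R, hR⟩ := H333.V.exists_rad hO
  haveI := hR.normal
  haveI : NoncompactSpace (E j) := ⟨fun a => H333.V.noncpt_quo hO hR (by
    simpa [QuotientGroup.mk_surjective.range_eq] using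
      a.image (QuotientGroup.continuous_mk (N := R)))⟩
  haveI := infinite_lattice h1
  refine ⟨@Infinite.of_surjective _ _ this _ (MonoidHom.rangeRestrict_surjective _), h2,
    fun K _ _ _ V R₁ R₂ => over_of_stmt hE h2 _ ((injective_iff_map_eq_one _).2 fun g e => ?_) h1⟩
  refine Subtype.ext (Subtype.ext (hi (funext fun i => ?_)))
  rw [OneMemClass.coe_one, OneMemClass.coe_one, map_one]
  by_cases a : i = j
  · subst a; exact e
  · exact mem_Su.1 g.2 i (hj ▸ a)

end Vale.Agent.P092PR
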