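import Vale.Agent.P092PG.Stmt
import Vale.Agent.P092GV.Virt

/-!
P092, product glue (helper26): reduction to the lattices whose projections are dense or discrete.
-/

set_option linter.all false

open Set Topology Filter

namespace Vale.Agent.P092PR

open Vale.Agent.P092 Vale.Agent.P092.H259
open Vale.Agent.P092.VR (Ov inc lat_comap)
open Vale.Agent.P092.H515.St (IsLattice)
open Vale.Agent.P092.SR.St (ICC SuperAll)
open Vale.Agent.P092.H35.Mx (MinC)
open Vale.Agent.P092.H678.OV (OverStmt)

/-- the product glue when every projection is dense or discrete -/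
def PG0 : Prop :=
  ∀ (Γ I : Type) [Group Γ] [Fintype I] (M E : I → Type) [∀ i, Group (M i)]
    [∀ i, TopologicalSpace (M i)] [∀ i, Group (E i)] [∀ i, TopologicalSpace (E i)]
    (φ : ∀ i, M i →* E i) (r : I → ℕ) (q : Γ →* ∀ i, E i), ICC Γ → UN.PropT Γ →
    (∀ i, Ov (φ i) (r i)) → (∀ i, MinC (E i)) →
    (∀ i, DenseRange (fun g => q g i) ∨
      DiscreteTopology (range fun g => q g i) ∧ OverStmt (E i)) →
    Function.Injective q → IsLattice q.range → SuperAll Γ

theorem pgs_of (h : PG0) : P092PG.PGS := by
  classical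
  intro Γ I _ _ E _ _ q hicc hT hB hO hi hl
  choose M gM tM φ r hφ using fun i => (hB i).ov
  haveI := fun i => (hφ i).top
  haveI := fun i => H333.V.Ov.t2 (hφ i)
  haveI := fun i => H333.V.Ov.lc (hφ i)
  haveI := fun i => H333.V.Ov.sc (hφ i)
  have key : ∀ i, ∃ H : Subgroup (E i), IsOpen (H : Set (E i)) ∧ H.FiniteIndex ∧ (∀ g, q g i ∈ H) ∧
      ((H : Set (E i)) ⊆ closure (range fun g => q g i) ∨
        DiscreteTopology (range fun g => q g i)) := fun i => by
    by_cases hd : DiscreteTopology (range fun g => q g i)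
    · exact ⟨⊤, isOpen_univ, inferInstance, fun _ => trivial, .inr hd⟩
    let H := ((Pi.evalMonoidHom E i).comp q).range.topologicalClosure
    have hm : ∀ g, q g i ∈ H := fun g => Subgroup.le_topologicalClosure _ ⟨g, rfl⟩
    have hν := Nd.push (Pi.evalMonoidHom E i) (continuous_apply i) (fun x =>
      ⟨Function.update 1 i x, Function.update_self i x 1⟩) q.range H (by
      rintro _ ⟨g, rfl⟩
      exact hm g) hl.covol
    have ho := (hB i).nd H (Subgroup.isClosed_topologicalClosure _) hν fun h5 => hd
      (DiscreteTopology.of_continuous_injective (continuous_inclusion (range_subset_iff.2 hm))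
        (inclusion_injective _))
    exact ⟨H, ho, Nd.fin_index H ho hν, hm, .inl subset_rfl⟩
  choose H ho hf hm hd using key
  have hx : ∀ i x, φ i x ∈ H i := fun i => Nd.range_le (hφ i) (H i) (ho i) (hf i)
  let q' : Γ →* ∀ i, H i :=
    MonoidHom.pi fun i => ((Pi.evalMonoidHom E i).comp q).codRestrict (H i) (hm i)
  let Φ : (∀ i, H i) →* ∀ i, E i := inc fun i => (H i).subtype
  have hΦ : Function.Injective Φ := fun x y e => funext fun i => Subtype.ext (congrFun e i)
  have h1 := lat_comap Φ hΦ (Continuous.piMap fun i => continuous_subtype_val)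
    (IsOpenMap.piMap (f := fun i => ((H i).subtype : H i → E i))
      (fun i => (ho i).isOpenMap_subtype_val) (by rw [cofinite_eq_bot]; exact eventually_bot))
    q.range ⟨hl.disc, hl.covol⟩
  have h2 : q.range.comap Φ = q'.range := Subgroup.ext fun x =>
    ⟨fun ⟨g, e⟩ => ⟨g, hΦ e⟩, fun ⟨g, e⟩ => ⟨g, congrArg Φ e⟩⟩
  rw [h2] at h1
  refine h Γ I M (fun i => H i) (fun i => (φ i).codRestrict (H i) (hx i)) r q' hicc hT
    (fun i => Nd.ov_sub (hφ i) (H i) (hx i))
    (fun i => (hB i).mc.of_injective (H i).subtype Subtype.val_injective)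
    (fun i => (hd i).imp (fun a => ?_) fun a => ⟨?_, ?_⟩) (fun x y e => hi (congrArg Φ e))
    ⟨h1.disc, h1.covol⟩
  · refine Subtype.dense_iff.2 fun x hx => closure_mono ?_ (a hx)
    rintro _ ⟨g, rfl⟩
    exact ⟨_, ⟨g, rfl⟩, rfl⟩
  · exact @DiscreteTopology.of_continuous_injective _ _ _ _ a (f := fun x : range fun g => q' g i =>
      (⟨x.1.1, x.2.imp fun g e => congrArg Subtype.val e⟩ : range fun g => q g i)) (by fun_prop)
      fun x y e => Subtype.ext (Subtype.ext (congrArg (fun z : range fun g => q g i => z.1) e))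
  · haveI : SecondCountableTopology (H i) := IsEmbedding.subtypeVal.secondCountableTopology
    haveI := ((H i).isClosed_of_isOpen (ho i)).locallyCompactSpace
    exact P092GV.over_virt (MonoidHom.id _) Function.injective_id continuous_id IsOpenMap.id
      (by rw [MonoidHom.range_eq_top.2 Function.surjective_id]; infer_instance) (H i).subtype
      ((H i).isClosed_of_isOpen (ho i)).isClosedEmbedding_subtypeVal.isProperMap
      (by rw [Subgroup.range_subtype]; exact hf i) (hO i)

end Vale.Agent.P092PR
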